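import Vale.Agent.P018.Bdl.B15

open Polynomial Filter Topology Asymptotics

open Vale.Agent.P018 in
/-- Power-free values of all irreducible polynomials. Let `f ∈ ℤ[x]` be irreducible over `ℚ`, of
degree `d`, satisfying the local condition at exponent `k ≥ 2`. Then the predicted asymptotic
formula `S_{f,k}(X) = c_{f,k} X + o(X)` holds in each of the following cases:
(A) `2 k > d`; (B) `k ≥ (2 d + 12) / 7`; (C) `k ≥ d / 4 + (log d) ^ 2`. -/
theorem Vale.Agent.Results.P018.QuarterLog.result (f : ℤ[X]) (k : ℕ) (hk : 2 ≤ k)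
    (hirr : Irreducible (f.map (Int.castRingHom ℚ)))
    (hloc : ∀ p : ℕ, p.Prime → rho f (p ^ k) < p ^ k)
    (hrange : f.natDegree < 2 * k ∨ 2 * f.natDegree + 12 ≤ 7 * k ∨
      (f.natDegree : ℝ) / 4 + Real.log f.natDegree ^ 2 ≤ k) :
    Multipliable (fun p : Nat.Primes => 1 - (rho f ((p : ℕ) ^ k) : ℝ) / ((p : ℕ) : ℝ) ^ k) ∧
    0 < density f k ∧
    (fun X : ℕ => (countPF f k X : ℝ) - density f k * X) =o[atTop] (fun X : ℕ => (X : ℝ)) := by
  obtain ⟨h1, h2⟩ := K3.main_stair f k hk hirr hloc hrange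
  exact ⟨multipliable_density f k hk hirr, h1, h2⟩
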